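import Vale.Agent.P242X.Final

open MeasureTheory Set Filter Topology unitInterval Vale.Agent Vale.Agent.P242W
  Vale.Agent.P242X Vale.Agent.P242.H719
open scoped ENNReal NNReal MeasureTheory

universe u

/-- Bi-Lipschitz charts at the regular points of noncollapsed `RCD(K, n)` spaces, the Cheeger
energy being defined by the minimal weak upper gradient. `U` is one of three notions of weak upper
gradient: test plans and almost every curve, test plans in integrated form, `2`-modulus. The first
part says that the metric speed is a limit; the second is the theorem of Ambrosio, Gigli and Savare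
(weak upper gradients are the relaxed slopes; the minimal one exists and is unique); the third is
the chart, under the definition of the problem file or under a weak form of the reduced
curvature-dimension condition. -/
theorem Vale.Agent.Results.P242.AAWeakGradient.result :
    ∀ (X : Type u) [MetricSpace X] [CompleteSpace X] [TopologicalSpace.SeparableSpace X]
      [MeasurableSpace X] [BorelSpace X] [MeasurableSpace C(I, X)] [BorelSpace C(I, X)],
      (∀ γ : C(I, X), IsAC 1 γ → ∀ᵐ t, speed γ t < ∞ ∧
        Tendsto (fun s => edist (γ s) (γ t) / edist s t) (𝓝[≠] t) (𝓝 (speed γ t))) ∧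
      ∀ U ∈ ({IsWeakUG, IsIntUG, IsNewtonUG} : Set (Measure X → (X → ℝ) → (X → ℝ) → Prop)),
        (∀ m : Measure X, (∀ B, Bornology.IsBounded B → m B < ∞) → ∀ f G,
          (U m f G ↔ P233.T.IsRelaxedSlope m f G) ∧
          (U m f G → ∃ S, IsMin U m f S ∧ P233.T.IsMinSlope m f S ∧
            (∀ S', IsMin U m f S' → S' =ᵐ[m] S) ∧ Ch U m f = 2⁻¹ * ∫⁻ x, ‖S x‖ₑ ^ 2 ∂m)) ∧
        ∀ n : ℕ, 2 ≤ n → ∀ (K : ℝ) (c : ℝ≥0), c ≠ 0 →
          IsRCD U (c • μH[(n : ℝ)]) K n ∨ IsRCDs U (c • μH[(n : ℝ)]) K n →
          ∀ p : X, IsRegular n p → ∃ V : Set X, IsOpen V ∧ p ∈ V ∧ BiLipChart n 2 V :=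
  fun X _ _ _ _ _ _ _ => P242X.final X
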